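import Mathlib

/-!
P123 FULL, module M1 (abstract part): a continuous strictly positive Markov kernel on the circle
has a continuous invariant density, and its powers converge uniformly (Doeblin).
-/

namespace Vale.Agent.P123

open MeasureTheory Filter Topology
open scoped Real

/-- iterated kernels -/
noncomputable def KK (k : ℝ → ℝ → ℝ) : ℕ → ℝ → ℝ → ℝ
  | 0 => k
  | n + 1 => fun s t => ∫ u in (0 : ℝ)..(2 * π), k s u * KK k n u t

/-- the Markov operator with kernel `k` -/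
noncomputable def PK (k : ℝ → ℝ → ℝ) (ψ : ℝ → ℂ) (s : ℝ) : ℂ :=
  ∫ t in (0 : ℝ)..(2 * π), ((k s t : ℝ) : ℂ) * ψ t

variable {k : ℝ → ℝ → ℝ}

theorem KK_cont (hk : Continuous (Function.uncurry k)) (n : ℕ) :
    Continuous (Function.uncurry (KK k n)) := by
  induction n with
  | zero => exact hk
  | succ n ih =>
    have h1 : Function.uncurry (KK k (n + 1)) =
        fun p : ℝ × ℝ => ∫ u in (0 : ℝ)..(2 * π), k p.1 u * KK k n u p.2 := by
      funext p
      rfl
    rw [h1]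
    refine intervalIntegral.continuous_parametric_intervalIntegral_of_continuous' ?_ 0 (2 * π)
    have a1 : Continuous fun x : (ℝ × ℝ) × ℝ => k x.1.1 x.2 :=
      hk.comp (by fun_prop : Continuous fun x : (ℝ × ℝ) × ℝ => (x.1.1, x.2))
    have a2 : Continuous fun x : (ℝ × ℝ) × ℝ => KK k n x.2 x.1.2 :=
      ih.comp (by fun_prop : Continuous fun x : (ℝ × ℝ) × ℝ => (x.2, x.1.2))
    exact a1.mul a2

theorem KK_cont1 (hk : Continuous (Function.uncurry k)) (n : ℕ) (t : ℝ) :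
    Continuous (fun s => KK k n s t) :=
  (KK_cont hk n).comp (by fun_prop : Continuous fun s : ℝ => (s, t))

theorem KK_cont2 (hk : Continuous (Function.uncurry k)) (n : ℕ) (s : ℝ) :
    Continuous (fun t => KK k n s t) :=
  (KK_cont hk n).comp (by fun_prop : Continuous fun t : ℝ => (s, t))

theorem PK_cont (hk : Continuous (Function.uncurry k)) {ψ : ℝ → ℂ} (hψ : Continuous ψ) :
    Continuous (PK k ψ) := by
  refine intervalIntegral.continuous_parametric_intervalIntegral_of_continuous' ?_ 0 (2 * π)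
  have a1 : Continuous fun x : ℝ × ℝ => ((k x.1 x.2 : ℝ) : ℂ) :=
    Complex.continuous_ofReal.comp hk
  exact a1.mul (hψ.comp continuous_snd)

theorem PK_iterate (hk : Continuous (Function.uncurry k)) {ψ : ℝ → ℂ} (hψ : Continuous ψ)
    (n : ℕ) (s : ℝ) :
    (PK k)^[n + 1] ψ s = ∫ t in (0 : ℝ)..(2 * π), ((KK k n s t : ℝ) : ℂ) * ψ t := by
  induction n generalizing s with
  | zero => rfl
  | succ n ih =>
    rw [Function.iterate_succ_apply']
    have h1 : (PK k)^[n + 1] ψ = fun s => ∫ t in (0 : ℝ)..(2 * π), ((KK k n s t : ℝ) : ℂ) * ψ t :=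
      funext ih
    rw [h1]
    show ∫ u in (0 : ℝ)..(2 * π), ((k s u : ℝ) : ℂ) *
      (∫ t in (0 : ℝ)..(2 * π), ((KK k n u t : ℝ) : ℂ) * ψ t) = _
    have h2 : ∀ u : ℝ, ((k s u : ℝ) : ℂ) * (∫ t in (0 : ℝ)..(2 * π), ((KK k n u t : ℝ) : ℂ) * ψ t)
        = ∫ t in (0 : ℝ)..(2 * π), ((k s u : ℝ) : ℂ) * (((KK k n u t : ℝ) : ℂ) * ψ t) := fun u =>
      (intervalIntegral.integral_const_mul _ _).symm
    simp only [h2]
    have hpi : (0 : ℝ) ≤ 2 * π := by positivity
    rw [intervalIntegral.integral_of_le hpi]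
    have h3 : ∀ u : ℝ, (∫ t in (0 : ℝ)..(2 * π), ((k s u : ℝ) : ℂ) * (((KK k n u t : ℝ) : ℂ) * ψ t))
        = ∫ t in Set.Ioc 0 (2 * π), ((k s u : ℝ) : ℂ) * (((KK k n u t : ℝ) : ℂ) * ψ t) := fun u =>
      intervalIntegral.integral_of_le hpi
    simp only [h3]
    rw [MeasureTheory.integral_integral_swap]
    · rw [intervalIntegral.integral_of_le hpi]
      refine integral_congr_ae (Filter.Eventually.of_forall fun t => ?_)
      show ∫ u in Set.Ioc 0 (2 * π), ((k s u : ℝ) : ℂ) * (((KK k n u t : ℝ) : ℂ) * ψ t) =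
        ((KK k (n + 1) s t : ℝ) : ℂ) * ψ t
      have h4 : ((KK k (n + 1) s t : ℝ) : ℂ) = ∫ u in Set.Ioc 0 (2 * π),
          ((k s u : ℝ) : ℂ) * ((KK k n u t : ℝ) : ℂ) := by
        show ((∫ u in (0 : ℝ)..(2 * π), k s u * KK k n u t : ℝ) : ℂ) = _
        rw [intervalIntegral.integral_of_le hpi, ← integral_complex_ofReal]
        refine integral_congr_ae (Filter.Eventually.of_forall fun u => ?_)
        push_cast
        rfl
      rw [h4, ← integral_mul_const]
      refine integral_congr_ae (Filter.Eventually.of_forall fun u => ?_)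
      show ((k s u : ℝ) : ℂ) * (((KK k n u t : ℝ) : ℂ) * ψ t) =
        ((k s u : ℝ) : ℂ) * ((KK k n u t : ℝ) : ℂ) * ψ t
      ring
    · have hc : Continuous (Function.uncurry fun u t : ℝ =>
          ((k s u : ℝ) : ℂ) * (((KK k n u t : ℝ) : ℂ) * ψ t)) := by
        have a1 : Continuous fun x : ℝ × ℝ => ((k s x.1 : ℝ) : ℂ) :=
          Complex.continuous_ofReal.comp
            (hk.comp (by fun_prop : Continuous fun x : ℝ × ℝ => (s, x.1)))
        have a2 : Continuous fun x : ℝ × ℝ => ((KK k n x.1 x.2 : ℝ) : ℂ) :=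
          Complex.continuous_ofReal.comp (KK_cont hk n)
        exact a1.mul (a2.mul (hψ.comp continuous_snd))
      rw [Measure.prod_restrict]
      have hint : IntegrableOn (Function.uncurry fun u t : ℝ =>
          ((k s u : ℝ) : ℂ) * (((KK k n u t : ℝ) : ℂ) * ψ t))
          (Set.Icc 0 (2 * π) ×ˢ Set.Icc 0 (2 * π)) (volume.prod volume) :=
        hc.continuousOn.integrableOn_compact (isCompact_Icc.prod isCompact_Icc)
      exact hint.mono_set (Set.prod_mono Set.Ioc_subset_Icc_self Set.Ioc_subset_Icc_self)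

/-- the hypotheses on the kernel -/
structure Doeb (k : ℝ → ℝ → ℝ) (c M : ℝ) : Prop where
  cont : Continuous (Function.uncurry k)
  per2 : ∀ s t, k s (t + 2 * π) = k s t
  c_pos : 0 < c
  lower : ∀ s t, c ≤ k s t
  upper : ∀ s t, k s t ≤ M
  mass : ∀ s, ∫ t in (0 : ℝ)..(2 * π), k s t = 1

theorem Doeb.int_le {c M : ℝ} (D : Doeb k c M) : 2 * π * c ≤ 1 := by
  have h1 : ∫ t in (0 : ℝ)..(2 * π), c ≤ ∫ t in (0 : ℝ)..(2 * π), k 0 t := by
    refine intervalIntegral.integral_mono_on (by positivity) (by simp)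
      ((D.cont.comp (by fun_prop : Continuous fun t : ℝ => ((0 : ℝ), t))).intervalIntegrable _ _)
      fun t _ => D.lower 0 t
  rw [D.mass 0, intervalIntegral.integral_const, smul_eq_mul, sub_zero] at h1
  exact h1

/-- one step of the contraction, upper bounds -/
theorem Doeb.step_le {c M : ℝ} (D : Doeb k c M) {f : ℝ → ℝ} (hf : Continuous f) {b : ℝ}
    (hb : ∀ s, f s ≤ b) (s : ℝ) :
    ∫ u in (0 : ℝ)..(2 * π), k s u * f u
      ≤ c * (∫ u in (0 : ℝ)..(2 * π), f u) + (1 - 2 * π * c) * b := by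
  have hks : Continuous fun u => k s u := D.cont.comp (by fun_prop : Continuous fun t : ℝ => (s, t))
  have h1 : ∫ u in (0 : ℝ)..(2 * π), k s u * f u ≤
      ∫ u in (0 : ℝ)..(2 * π), (c * f u + (k s u - c) * b) := by
    refine intervalIntegral.integral_mono_on (by positivity)
      ((hks.mul hf).intervalIntegrable _ _)
      (((continuous_const.mul hf).add ((hks.sub continuous_const).mul
        continuous_const)).intervalIntegrable _ _) fun u _ => ?_
    have h2 := D.lower s u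
    have h3 := hb u
    nlinarith [mul_nonneg (sub_nonneg.2 h2) (sub_nonneg.2 h3)]
  refine h1.trans (le_of_eq ?_)
  have i1 : IntervalIntegrable (fun u => c * f u) volume 0 (2 * π) :=
    (continuous_const.mul hf).intervalIntegrable _ _
  have i2 : IntervalIntegrable (fun u => (k s u - c) * b) volume 0 (2 * π) :=
    ((hks.sub continuous_const).mul continuous_const).intervalIntegrable _ _
  rw [intervalIntegral.integral_add i1 i2,
    intervalIntegral.integral_const_mul, intervalIntegral.integral_mul_const,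
    intervalIntegral.integral_sub (hks.intervalIntegrable _ _) (by simp), D.mass s,
    intervalIntegral.integral_const, smul_eq_mul, sub_zero]

/-- one step of the contraction, lower bounds -/
theorem Doeb.step_ge {c M : ℝ} (D : Doeb k c M) {f : ℝ → ℝ} (hf : Continuous f) {a : ℝ}
    (ha : ∀ s, a ≤ f s) (s : ℝ) :
    c * (∫ u in (0 : ℝ)..(2 * π), f u) + (1 - 2 * π * c) * a
      ≤ ∫ u in (0 : ℝ)..(2 * π), k s u * f u := by
  have h := D.step_le (f := fun u => - f u) hf.neg (b := -a) (fun s => neg_le_neg (ha s)) s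
  simp only [mul_neg, intervalIntegral.integral_neg] at h
  linarith

theorem Doeb.avg_le {c M : ℝ} (D : Doeb k c M) {f : ℝ → ℝ} (hf : Continuous f) {b : ℝ}
    (hb : ∀ s, f s ≤ b) (s : ℝ) : ∫ u in (0 : ℝ)..(2 * π), k s u * f u ≤ b := by
  have h := D.step_le hf hb s
  have h1 : ∫ u in (0 : ℝ)..(2 * π), f u ≤ 2 * π * b := by
    have : ∫ u in (0 : ℝ)..(2 * π), f u ≤ ∫ u in (0 : ℝ)..(2 * π), b :=
      intervalIntegral.integral_mono_on (by positivity) (hf.intervalIntegrable _ _) (by simp)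
        fun u _ => hb u
    rwa [intervalIntegral.integral_const, smul_eq_mul, sub_zero] at this
  have h2 := mul_le_mul_of_nonneg_left h1 D.c_pos.le
  nlinarith

theorem Doeb.le_avg {c M : ℝ} (D : Doeb k c M) {f : ℝ → ℝ} (hf : Continuous f) {a : ℝ}
    (ha : ∀ s, a ≤ f s) (s : ℝ) : a ≤ ∫ u in (0 : ℝ)..(2 * π), k s u * f u := by
  have h := D.avg_le (f := fun u => - f u) hf.neg (b := -a) (fun s => neg_le_neg (ha s)) s
  simp only [mul_neg, intervalIntegral.integral_neg] at h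
  linarith

/-- the contraction rate -/
theorem Doeb.rate {c M : ℝ} (D : Doeb k c M) : 0 ≤ 1 - 2 * π * c ∧ 1 - 2 * π * c < 1 := by
  have := D.int_le
  have h2 := D.c_pos
  have : 0 < 2 * π * c := by positivity
  constructor <;> linarith

theorem Doeb.lowerK {c M : ℝ} (D : Doeb k c M) (n : ℕ) (s t : ℝ) : c ≤ KK k n s t := by
  induction n generalizing s with
  | zero => exact D.lower s t
  | succ n ih => exact D.le_avg (KK_cont1 D.cont n t) (fun s => ih s) s

theorem Doeb.upperK {c M : ℝ} (D : Doeb k c M) (n : ℕ) (s t : ℝ) : KK k n s t ≤ M := by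
  induction n generalizing s with
  | zero => exact D.upper s t
  | succ n ih => exact D.avg_le (KK_cont1 D.cont n t) (fun s => ih s) s

theorem Doeb.osc {c M : ℝ} (D : Doeb k c M) (n : ℕ) (t : ℝ) :
    ∃ a b : ℝ, (∀ s, a ≤ KK k n s t) ∧ (∀ s, KK k n s t ≤ b) ∧
      b - a ≤ M * (1 - 2 * π * c) ^ n := by
  induction n with
  | zero =>
    refine ⟨0, M, fun s => D.c_pos.le.trans (D.lower s t), fun s => D.upper s t, by simp⟩
  | succ n ih =>
    obtain ⟨a, b, ha, hb, hab⟩ := ih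
    refine ⟨c * (∫ u in (0 : ℝ)..(2 * π), KK k n u t) + (1 - 2 * π * c) * a,
      c * (∫ u in (0 : ℝ)..(2 * π), KK k n u t) + (1 - 2 * π * c) * b,
      fun s => D.step_ge (KK_cont1 D.cont n t) ha s, fun s => D.step_le (KK_cont1 D.cont n t) hb s,
      ?_⟩
    have h1 := mul_le_mul_of_nonneg_left hab D.rate.1
    rw [pow_succ]
    linarith

theorem Doeb.osc' {c M : ℝ} (D : Doeb k c M) (n : ℕ) (s s' t : ℝ) :
    |KK k n s t - KK k n s' t| ≤ M * (1 - 2 * π * c) ^ n := by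
  obtain ⟨a, b, ha, hb, hab⟩ := D.osc n t
  rw [abs_le]
  constructor <;> linarith [ha s, ha s', hb s, hb s']

theorem Doeb.next {c M : ℝ} (D : Doeb k c M) (n : ℕ) (s s' t : ℝ) :
    |KK k n s t - KK k (n + 1) s' t| ≤ M * (1 - 2 * π * c) ^ n := by
  obtain ⟨a, b, ha, hb, hab⟩ := D.osc n t
  have h1 : a ≤ KK k (n + 1) s' t := D.le_avg (KK_cont1 D.cont n t) ha s'
  have h2 : KK k (n + 1) s' t ≤ b := D.avg_le (KK_cont1 D.cont n t) hb s'
  rw [abs_le]
  constructor <;> linarith [ha s, hb s]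

theorem Doeb.exists_lim {c M : ℝ} (D : Doeb k c M) : ∃ m : ℝ → ℝ, ∀ n s t,
    |KK k n s t - m t| ≤ 2 * M / (2 * π * c) * (1 - 2 * π * c) ^ n := by
  have hr := D.rate
  have hM : 0 ≤ M := D.c_pos.le.trans ((D.lower 0 0).trans (D.upper 0 0))
  have h1 : ∀ t, ∃ l, Tendsto (fun n => KK k n 0 t) atTop (𝓝 l) := fun t =>
    cauchySeq_tendsto_of_complete (cauchySeq_of_le_geometric _ M hr.2 fun n => by
      rw [Real.dist_eq]
      exact D.next n 0 0 t)
  choose m hm using h1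
  refine ⟨m, fun n s t => ?_⟩
  have h2 : dist (KK k n 0 t) (m t) ≤ M * (1 - 2 * π * c) ^ n / (1 - (1 - 2 * π * c)) :=
    dist_le_of_le_geometric_of_tendsto _ _ hr.2 (fun n => by
      rw [Real.dist_eq]
      exact D.next n 0 0 t) (hm t) n
  rw [Real.dist_eq] at h2
  have h3 := D.osc' n s 0 t
  have h4 : |KK k n s t - m t| ≤ |KK k n s t - KK k n 0 t| + |KK k n 0 t - m t| :=
    abs_sub_le _ _ _
  have hcp : 0 < 2 * π * c := by have := D.c_pos; positivity
  have h5 : M * (1 - 2 * π * c) ^ n ≤ M * (1 - 2 * π * c) ^ n / (2 * π * c) := by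
    rw [le_div_iff₀ hcp]
    have : 0 ≤ M * (1 - 2 * π * c) ^ n := mul_nonneg hM (pow_nonneg hr.1 n)
    nlinarith [D.int_le]
  have h6 : M * (1 - 2 * π * c) ^ n / (1 - (1 - 2 * π * c)) =
      M * (1 - 2 * π * c) ^ n / (2 * π * c) := by
    congr 1
    ring
  rw [h6] at h2
  have h7 : 2 * M / (2 * π * c) * (1 - 2 * π * c) ^ n =
      2 * (M * (1 - 2 * π * c) ^ n / (2 * π * c)) := by ring
  rw [h7]
  linarith

/-- Doeblin's theorem for a continuous kernel on the circle. -/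
theorem Doeb.main {c M : ℝ} (D : Doeb k c M) : ∃ m : ℝ → ℝ, Continuous m ∧
    (∀ t, m (t + 2 * π) = m t) ∧ (∀ t, c ≤ m t) ∧ (∫ t in (0 : ℝ)..(2 * π), m t = 1) ∧
    (∀ ψ : ℝ → ℂ, Continuous ψ →
      ∫ s in (0 : ℝ)..(2 * π), PK k ψ s * ((m s : ℝ) : ℂ) =
        ∫ t in (0 : ℝ)..(2 * π), ψ t * ((m t : ℝ) : ℂ)) ∧
    (∀ ψ : ℝ → ℂ, Continuous ψ → ∀ ε : ℝ, 0 < ε → ∃ N : ℕ, ∀ n, N ≤ n → ∀ s,
      ‖(PK k)^[n] ψ s - ∫ t in (0 : ℝ)..(2 * π), ψ t * ((m t : ℝ) : ℂ)‖ ≤ ε) := by
  obtain ⟨m, hm⟩ := D.exists_lim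
  have hr := D.rate
  have hM : 0 ≤ M := D.c_pos.le.trans ((D.lower 0 0).trans (D.upper 0 0))
  have hcp : 0 < 2 * π * c := by have := D.c_pos; positivity
  set B : ℝ := 2 * M / (2 * π * c) with hB
  have hB0 : 0 ≤ B := by positivity
  set θ : ℝ := 1 - 2 * π * c with hθ
  have hpow : Tendsto (fun n : ℕ => B * θ ^ n) atTop (𝓝 0) := by
    have := (tendsto_pow_atTop_nhds_zero_of_lt_one hr.1 hr.2).const_mul B
    rwa [mul_zero] at this
  have hpt : ∀ t, Tendsto (fun n => KK k n 0 t) atTop (𝓝 (m t)) := by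
    intro t
    rw [tendsto_iff_dist_tendsto_zero]
    refine squeeze_zero (fun n => dist_nonneg) (fun n => ?_) hpow
    rw [Real.dist_eq]
    exact hm n 0 t
  have hcont : Continuous m := by
    have hu : TendstoUniformly (fun n t => KK k n 0 t) m atTop := by
      rw [Metric.tendstoUniformly_iff]
      intro ε hε
      have h1 := (tendsto_order.1 hpow).2 ε hε
      filter_upwards [h1] with n hn t
      rw [dist_comm, Real.dist_eq]
      exact (hm n 0 t).trans_lt hn
    exact hu.continuous (Filter.Eventually.frequently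
      (Filter.Eventually.of_forall fun n => KK_cont2 D.cont n 0))
  have hperK : ∀ n s t, KK k n s (t + 2 * π) = KK k n s t := by
    intro n
    induction n with
    | zero => exact D.per2
    | succ n ih =>
      intro s t
      show ∫ u in (0 : ℝ)..(2 * π), k s u * KK k n u (t + 2 * π) =
        ∫ u in (0 : ℝ)..(2 * π), k s u * KK k n u t
      simp only [ih]
  have hper : ∀ t, m (t + 2 * π) = m t := by
    intro t
    refine tendsto_nhds_unique (hpt (t + 2 * π)) ?_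
    simp only [hperK]
    exact hpt t
  have hlow : ∀ t, c ≤ m t := fun t =>
    ge_of_tendsto' (hpt t) fun n => D.lowerK n 0 t
  have hmc : Continuous fun t => ((m t : ℝ) : ℂ) := Complex.continuous_ofReal.comp hcont
  -- the uniform bound
  have hbound : ∀ ψ : ℝ → ℂ, Continuous ψ → ∃ C : ℝ, 0 ≤ C ∧ ∀ n s,
      ‖(PK k)^[n + 1] ψ s - ∫ t in (0 : ℝ)..(2 * π), ψ t * ((m t : ℝ) : ℂ)‖ ≤ C * (B * θ ^ n) := by
    intro ψ hψ
    obtain ⟨C, hC⟩ := (isCompact_Icc (a := (0 : ℝ)) (b := 2 * π)).exists_bound_of_continuousOn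
      hψ.continuousOn
    have hC0 : 0 ≤ C := (norm_nonneg _).trans (hC 0 ⟨le_rfl, by positivity⟩)
    refine ⟨2 * π * C, by positivity, fun n s => ?_⟩
    have i1 : IntervalIntegrable (fun t => ((KK k n s t : ℝ) : ℂ) * ψ t) volume 0 (2 * π) :=
      ((Complex.continuous_ofReal.comp (KK_cont2 D.cont n s)).mul hψ).intervalIntegrable _ _
    have i2 : IntervalIntegrable (fun t => ψ t * ((m t : ℝ) : ℂ)) volume 0 (2 * π) :=
      (hψ.mul hmc).intervalIntegrable _ _
    rw [PK_iterate D.cont hψ n s, ← intervalIntegral.integral_sub i1 i2]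
    have h1 : ∀ t ∈ Set.uIoc 0 (2 * π), ‖((KK k n s t : ℝ) : ℂ) * ψ t - ψ t * ((m t : ℝ) : ℂ)‖ ≤
        C * (B * θ ^ n) := by
      intro t ht
      rw [Set.uIoc_of_le (by positivity)] at ht
      have e : ((KK k n s t : ℝ) : ℂ) * ψ t - ψ t * ((m t : ℝ) : ℂ) =
          ψ t * (((KK k n s t - m t : ℝ)) : ℂ) := by
        push_cast
        ring
      rw [e, norm_mul, Complex.norm_real, Real.norm_eq_abs]
      exact mul_le_mul (hC t ⟨ht.1.le, ht.2⟩) (hm n s t) (abs_nonneg _) hC0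
    refine (intervalIntegral.norm_integral_le_of_norm_le_const h1).trans (le_of_eq ?_)
    rw [sub_zero, abs_of_nonneg (by positivity)]
    ring
  have hlim : ∀ ψ : ℝ → ℂ, Continuous ψ → ∀ ε : ℝ, 0 < ε → ∃ N : ℕ, ∀ n, N ≤ n → ∀ s,
      ‖(PK k)^[n] ψ s - ∫ t in (0 : ℝ)..(2 * π), ψ t * ((m t : ℝ) : ℂ)‖ ≤ ε := by
    intro ψ hψ ε hε
    obtain ⟨C, hC0, hC⟩ := hbound ψ hψ
    have h1 : Tendsto (fun n : ℕ => C * (B * θ ^ n)) atTop (𝓝 0) := by
      have := hpow.const_mul C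
      rwa [mul_zero] at this
    obtain ⟨N, hN⟩ := eventually_atTop.1 ((tendsto_order.1 h1).2 ε hε)
    refine ⟨N + 1, fun n hn s => ?_⟩
    obtain ⟨n', rfl⟩ : ∃ n', n = n' + 1 := ⟨n - 1, by omega⟩
    exact (hC n' s).trans (hN n' (by omega)).le
  have hinv : ∀ ψ : ℝ → ℂ, Continuous ψ →
      ∫ s in (0 : ℝ)..(2 * π), PK k ψ s * ((m s : ℝ) : ℂ) =
        ∫ t in (0 : ℝ)..(2 * π), ψ t * ((m t : ℝ) : ℂ) := by
    intro ψ hψ
    have h1 : ∀ ε : ℝ, 0 < ε → ‖(∫ s in (0 : ℝ)..(2 * π), PK k ψ s * ((m s : ℝ) : ℂ)) -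
        ∫ t in (0 : ℝ)..(2 * π), ψ t * ((m t : ℝ) : ℂ)‖ ≤ ε := by
      intro ε hε
      obtain ⟨N1, hN1⟩ := hlim (PK k ψ) (PK_cont D.cont hψ) (ε / 2) (by positivity)
      obtain ⟨N2, hN2⟩ := hlim ψ hψ (ε / 2) (by positivity)
      have a1 := hN1 (max N1 N2) (le_max_left _ _) 0
      have a2 := hN2 (max N1 N2 + 1) ((le_max_right _ _).trans (Nat.le_succ _)) 0
      rw [Function.iterate_succ_apply] at a2
      have e : (∫ s in (0 : ℝ)..(2 * π), PK k ψ s * ((m s : ℝ) : ℂ)) -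
          ∫ t in (0 : ℝ)..(2 * π), ψ t * ((m t : ℝ) : ℂ) =
          ((PK k)^[max N1 N2] (PK k ψ) 0 - ∫ t in (0 : ℝ)..(2 * π), ψ t * ((m t : ℝ) : ℂ)) -
          ((PK k)^[max N1 N2] (PK k ψ) 0 -
            ∫ s in (0 : ℝ)..(2 * π), PK k ψ s * ((m s : ℝ) : ℂ)) := by ring
      rw [e]
      refine (norm_sub_le _ _).trans ?_
      linarith
    have h2 : ‖(∫ s in (0 : ℝ)..(2 * π), PK k ψ s * ((m s : ℝ) : ℂ)) -
        ∫ t in (0 : ℝ)..(2 * π), ψ t * ((m t : ℝ) : ℂ)‖ ≤ 0 := le_of_forall_pos_le_add fun ε hε => by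
      rw [zero_add]
      exact h1 ε hε
    exact sub_eq_zero.1 (norm_le_zero_iff.1 h2)
  refine ⟨m, hcont, hper, hlow, ?_, hinv, hlim⟩
  -- total mass one
  have h1 : ∀ n s, (PK k)^[n] (fun _ => (1 : ℂ)) s = 1 := by
    intro n
    induction n with
    | zero => intro s; rfl
    | succ n ih =>
      intro s
      rw [Function.iterate_succ_apply', funext ih]
      show ∫ t in (0 : ℝ)..(2 * π), ((k s t : ℝ) : ℂ) * 1 = 1
      simp only [mul_one]
      rw [intervalIntegral.integral_ofReal, D.mass s]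
      simp
  have h2 : ‖(1 : ℂ) - ∫ t in (0 : ℝ)..(2 * π), (1 : ℂ) * ((m t : ℝ) : ℂ)‖ ≤ 0 :=
    le_of_forall_pos_le_add fun ε hε => by
      rw [zero_add]
      obtain ⟨N, hN⟩ := hlim (fun _ => 1) continuous_const ε hε
      have := hN N le_rfl 0
      rwa [h1] at this
  have h3 := sub_eq_zero.1 (norm_le_zero_iff.1 h2)
  simp only [one_mul] at h3
  rw [intervalIntegral.integral_ofReal] at h3
  exact_mod_cast h3.symm

end Vale.Agent.P123
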