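import Mathlib

/-!
P123 (Crouzeix, constant 2): the abstract `L²(m)` inequality.
-/

namespace Vale.Agent.P123F

open MeasureTheory
open scoped Real ComplexConjugate

/-- pointwise identity behind the inequality -/
theorem abs_pointwise (X Y Z f v G : ℂ) (K : ℝ) (hfY : f * Y = K * X + v) :
    2 * (4 * X.re ^ 2 - ‖conj Y + Z‖ ^ 2) + 2 * ‖Z‖ ^ 2 + 2 * (‖Y‖ ^ 2 - ‖f * Y‖ ^ 2)
      + 2 * ‖v + (K / 2 : ℝ) * conj (conj (X - 1) - G)‖ ^ 2
      = (4 - 2 * K ^ 2) * (‖X - 1‖ ^ 2 + 2 * X.re - 1) + 4 * (X * X).re - 4 * (Y * Z).re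
        - 4 * K * ((v * conj (X - 1)).re + v.re) + 2 * K * (v * conj (X - 1)).re
        - 2 * K * (v * G).re + K ^ 2 / 2 * (‖X - 1‖ ^ 2 + ‖G‖ ^ 2 - 2 * ((X - 1) * G).re) := by
  rw [hfY]
  simp only [Complex.sq_norm, Complex.normSq_apply, Complex.add_re, Complex.add_im, Complex.mul_re,
    Complex.mul_im, Complex.sub_re, Complex.sub_im, Complex.conj_re, Complex.conj_im,
    Complex.ofReal_re, Complex.ofReal_im, Complex.one_re, Complex.one_im, map_sub]
  ring

/-- The abstract inequality: `K ≤ 2`. -/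
theorem abs_ineq (m : ℝ → ℝ) (hm : Continuous m) (hm0 : ∀ t, 0 ≤ m t)
    (hm1 : ∫ t in (0 : ℝ)..(2 * π), m t = 1)
    (X Y Z f v G : ℝ → ℂ) (cX : Continuous X) (cY : Continuous Y) (cZ : Continuous Z)
    (cv : Continuous v) (cG : Continuous G)
    (hpos : ∀ t, ‖conj (Y t) + Z t‖ ≤ 2 * (X t).re)
    (p : ℝ) (hp : 0 ≤ p) (hYZ : ∫ t in (0 : ℝ)..(2 * π), Y t * Z t * (m t : ℂ) = p)
    (hX1 : ∫ t in (0 : ℝ)..(2 * π), X t * (m t : ℂ) = 1)
    (hX2 : ∫ t in (0 : ℝ)..(2 * π), X t * X t * (m t : ℂ) = 1)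
    (K : ℝ)
    (hf : ∀ t, ‖f t‖ ≤ 1) (hfY : ∀ t, f t * Y t = K * X t + v t)
    (hv : ∫ t in (0 : ℝ)..(2 * π), v t * (m t : ℂ) = 0)
    (hvG : ∫ t in (0 : ℝ)..(2 * π), v t * conj (X t - 1) * (m t : ℂ)
      = - ∫ t in (0 : ℝ)..(2 * π), v t * G t * (m t : ℂ))
    (hXG : ∫ t in (0 : ℝ)..(2 * π), (X t - 1) * G t * (m t : ℂ) = 0)
    (hG : ∫ t in (0 : ℝ)..(2 * π), ‖G t‖ ^ 2 * m t
      ≤ ∫ t in (0 : ℝ)..(2 * π), ‖X t - 1‖ ^ 2 * m t) : K ≤ 2 := by
  have h2pi : (0 : ℝ) ≤ 2 * π := by positivity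
  -- real parts
  have reI : ∀ F : ℝ → ℂ, Continuous F →
      (∫ t in (0 : ℝ)..(2 * π), F t * (m t : ℂ)).re = ∫ t in (0 : ℝ)..(2 * π), (F t).re * m t := by
    intro F hF
    have hc : Continuous fun t => F t * (m t : ℂ) := hF.mul (Complex.continuous_ofReal.comp hm)
    have h1 := Complex.reCLM.intervalIntegral_comp_comm (μ := volume) (a := 0) (b := 2 * π)
      (hc.intervalIntegrable 0 (2 * π))
    rw [← Complex.reCLM_apply, ← h1]
    apply intervalIntegral.integral_congr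
    intro t _
    simp
  set A := ∫ t in (0 : ℝ)..(2 * π), ‖X t - 1‖ ^ 2 * m t with hA
  set B := ∫ t in (0 : ℝ)..(2 * π), ‖G t‖ ^ 2 * m t with hB
  set c := ∫ t in (0 : ℝ)..(2 * π), (v t * conj (X t - 1)).re * m t with hc
  have i2 : ∫ t in (0 : ℝ)..(2 * π), (X t).re * m t = 1 := by
    rw [← reI X cX, hX1]; simp
  have i3 : ∫ t in (0 : ℝ)..(2 * π), (X t * X t).re * m t = 1 := by
    rw [← reI (fun t => X t * X t) (cX.mul cX), hX2]; simp
  have i4 : ∫ t in (0 : ℝ)..(2 * π), (Y t * Z t).re * m t = p := by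
    rw [← reI (fun t => Y t * Z t) (cY.mul cZ), hYZ]; simp
  have cc : Continuous fun t => v t * conj (X t - 1) :=
    cv.mul (Complex.continuous_conj.comp (cX.sub continuous_const))
  have i6 : ∫ t in (0 : ℝ)..(2 * π), (v t).re * m t = 0 := by
    rw [← reI v cv, hv]; simp
  have i7 : ∫ t in (0 : ℝ)..(2 * π), (v t * G t).re * m t = -c := by
    have h1 := congrArg Complex.re hvG
    rw [Complex.neg_re, reI (fun t => v t * conj (X t - 1)) cc,
      reI (fun t => v t * G t) (cv.mul cG)] at h1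
    rw [hc, h1]; ring
  have i9 : ∫ t in (0 : ℝ)..(2 * π), ((X t - 1) * G t).re * m t = 0 := by
    rw [← reI (fun t => (X t - 1) * G t) ((cX.sub continuous_const).mul cG), hXG]; simp
  -- the nonnegative integrand
  have hN : 0 ≤ ∫ t in (0 : ℝ)..(2 * π),
      ((4 - 2 * K ^ 2) * (‖X t - 1‖ ^ 2 + 2 * (X t).re - 1) + 4 * (X t * X t).re
        - 4 * (Y t * Z t).re
        - 4 * K * ((v t * conj (X t - 1)).re + (v t).re) + 2 * K * (v t * conj (X t - 1)).re
        - 2 * K * (v t * G t).re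
        + K ^ 2 / 2 * (‖X t - 1‖ ^ 2 + ‖G t‖ ^ 2 - 2 * ((X t - 1) * G t).re)) * m t := by
    apply intervalIntegral.integral_nonneg h2pi
    intro t _
    rw [← abs_pointwise (X t) (Y t) (Z t) (f t) (v t) (G t) K (hfY t)]
    apply mul_nonneg _ (hm0 t)
    have h1 : ‖conj (Y t) + Z t‖ ^ 2 ≤ 4 * (X t).re ^ 2 := by
      have := pow_le_pow_left₀ (norm_nonneg _) (hpos t) 2
      linarith [this, mul_pow 2 (X t).re 2]
    have h2 : ‖f t * Y t‖ ^ 2 ≤ ‖Y t‖ ^ 2 := by
      rw [norm_mul, mul_pow]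
      have h3 : ‖f t‖ ^ 2 ≤ 1 := pow_le_one₀ (norm_nonneg _) (hf t)
      nlinarith [sq_nonneg ‖Y t‖]
    have h3 := sq_nonneg ‖Z t‖
    have h4 := sq_nonneg ‖v t + ((K / 2 : ℝ) : ℂ) * conj (conj (X t - 1) - G t)‖
    linarith
  -- integrate
  have n1 : Continuous fun t => ‖X t - 1‖ ^ 2 * m t := by fun_prop
  have n2 : Continuous fun t => (X t).re * m t := by fun_prop
  have n3 : Continuous fun t => (X t * X t).re * m t := by fun_prop
  have n4 : Continuous fun t => (Y t * Z t).re * m t := by fun_prop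
  have n5 : Continuous fun t => (v t * conj (X t - 1)).re * m t := by fun_prop
  have n6 : Continuous fun t => (v t).re * m t := by fun_prop
  have n7 : Continuous fun t => (v t * G t).re * m t := by fun_prop
  have n8 : Continuous fun t => ‖G t‖ ^ 2 * m t := by fun_prop
  have n9 : Continuous fun t => ((X t - 1) * G t).re * m t := by fun_prop
  have hE : ∫ t in (0 : ℝ)..(2 * π),
      ((4 - 2 * K ^ 2) * (‖X t - 1‖ ^ 2 + 2 * (X t).re - 1) + 4 * (X t * X t).re
        - 4 * (Y t * Z t).re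
        - 4 * K * ((v t * conj (X t - 1)).re + (v t).re) + 2 * K * (v t * conj (X t - 1)).re
        - 2 * K * (v t * G t).re
        + K ^ 2 / 2 * (‖X t - 1‖ ^ 2 + ‖G t‖ ^ 2 - 2 * ((X t - 1) * G t).re)) * m t
      = (4 - 2 * K ^ 2 + K ^ 2 / 2) * A + 2 * (4 - 2 * K ^ 2) * 1 - (4 - 2 * K ^ 2) * 1 + 4 * 1
        - 4 * p - 2 * K * c - 4 * K * 0 - 2 * K * (-c) + K ^ 2 / 2 * B - K ^ 2 * 0 := by
    have H : ∀ (a : Fin 10 → ℝ) (g : Fin 10 → ℝ → ℝ), (∀ i, Continuous (g i)) →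
        ∫ t in (0 : ℝ)..(2 * π), ∑ i, a i * g i t
          = ∑ i, a i * ∫ t in (0 : ℝ)..(2 * π), g i t := by
      intro a g hg
      rw [intervalIntegral.integral_finsetSum]
      · simp only [intervalIntegral.integral_const_mul]
      · intro i _
        exact (continuous_const.mul (hg i)).intervalIntegrable _ _
    have h1 := H ![4 - 2 * K ^ 2 + K ^ 2 / 2, 2 * (4 - 2 * K ^ 2), -(4 - 2 * K ^ 2), 4, -4, -2 * K,
        -4 * K, -2 * K, K ^ 2 / 2, -K ^ 2]
      ![fun t => ‖X t - 1‖ ^ 2 * m t, fun t => (X t).re * m t, m, fun t => (X t * X t).re * m t,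
        fun t => (Y t * Z t).re * m t, fun t => (v t * conj (X t - 1)).re * m t,
        fun t => (v t).re * m t, fun t => (v t * G t).re * m t, fun t => ‖G t‖ ^ 2 * m t,
        fun t => ((X t - 1) * G t).re * m t]
      (by
        intro i
        fin_cases i
        · exact n1
        · exact n2
        · exact hm
        · exact n3
        · exact n4
        · exact n5
        · exact n6
        · exact n7
        · exact n8
        · exact n9)
    simp only [Fin.sum_univ_succ, Fin.sum_univ_zero, Matrix.cons_val_zero, Matrix.cons_val_succ] at h1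
    rw [← hA, ← hB, ← hc, i2, i3, i4, i6, i7, i9, hm1] at h1
    calc _ = _ := by
          apply intervalIntegral.integral_congr
          intro t _
          show _ = _
          ring_nf
      _ = _ := h1
      _ = _ := by ring
  rw [hE] at hN
  have hA0 : 0 ≤ A := by
    apply intervalIntegral.integral_nonneg h2pi
    intro t _
    exact mul_nonneg (sq_nonneg _) (hm0 t)
  have hBA : K ^ 2 / 2 * B ≤ K ^ 2 / 2 * A := mul_le_mul_of_nonneg_left hG (by positivity)
  have hfin : 0 ≤ (4 - K ^ 2) * (2 + A) := by nlinarith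
  have h4 : 0 ≤ 4 - K ^ 2 := by
    by_contra h
    push Not at h
    have : (4 - K ^ 2) * (2 + A) < 0 := mul_neg_of_neg_of_pos h (by linarith)
    linarith
  nlinarith

end Vale.Agent.P123F
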