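import Vale.Agent.Lib.P123F.Kern

/-!
P123: the double layer operator as a Markov operator on continuous periodic functions.
Use dominated convergence (kernel bounded by `ker_upper`, continuous off the diagonal).
`PP_iter` is Doeblin: with `κ = ker/π ≥ c₀ = c/π` off the diagonal and `M = 1 - 2π c₀ < 1`, write
`PP F = c₀ ∫ F + PP' F`, `‖PP' F‖∞ ≤ M ‖F‖∞`; if `‖F - a‖∞ ≤ r` then
`‖PP F - a'‖∞ ≤ M r` with `a' = a + c₀ ∫ (F - a)`, `|a' - a| ≤ 2π c₀ r`.
-/

namespace Vale.Agent.P123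

open MeasureTheory
open scoped Real

variable {h : ℝ → ℝ} {F G : ℝ → ℂ}

theorem PP_intervalIntegrable (hh : Adm h) (hF : Per F) (s a b : ℝ) :
    IntervalIntegrable (fun t => ((ker h (cur h s) t : ℝ) : ℂ) * F t) volume a b := by
  sorry

/-- comparison with the integral over a centred period -/
theorem PP_eq (hh : Adm h) (hF : Per F) (s : ℝ) :
    PP h F s = (1 / π : ℂ) * ∫ t in (s - π)..(s + π), ((ker h (cur h s) t : ℝ) : ℂ) * F t := by
  sorry

theorem PP_add (hh : Adm h) (hF : Per F) (hG : Per G) (s : ℝ) :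
    PP h (fun t => F t + G t) s = PP h F s + PP h G s := by
  sorry

theorem PP_smul (c : ℂ) (s : ℝ) : PP h (fun t => c * F t) s = c * PP h F s := by
  sorry

theorem PP_const (hh : Adm h) (c : ℂ) (s : ℝ) : PP h (fun _ => c) s = c := by
  sorry

theorem PP_cj : PP h (cj F) = cj (PP h F) := by
  sorry

theorem Per_PP (hh : Adm h) (hF : Per F) : Per (PP h F) := by
  sorry

theorem PP_norm_le (hh : Adm h) (hF : Per F) {M : ℝ} (hM : ∀ t, ‖F t‖ ≤ M) (s : ℝ) :
    ‖PP h F s‖ ≤ M := by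
  sorry

/-- Jensen -/
theorem PP_jensen (hh : Adm h) (hF : Per F) (s : ℝ) :
    ‖PP h F s‖ ^ 2 ≤ (PP h (fun t => ((‖F t‖ ^ 2 : ℝ) : ℂ)) s).re := by
  sorry

/-- the iterates converge uniformly to a constant -/
theorem PP_iter (hh : Adm h) (hF : Per F) :
    ∃ c : ℂ, ∀ ε : ℝ, 0 < ε → ∃ n₀ : ℕ, ∀ n, n₀ ≤ n → ∀ s, ‖((PP h)^[n] F) s - c‖ ≤ ε := by
  sorry

end Vale.Agent.P123
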