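import Vale.Agent.Lib.P123F.ExtAlg
import Vale.Agent.Lib.P123F.Mark

/-!
P123: for `F ∈ E0` the Cauchy transform of `conj F` has the boundary values
`conj F + PP (conj F)`.

`CT (cj F) z = π⁻¹ ∫ conj F (t) ker h z t dt` for `z` inside (subtract the conjugate of
`CT F z = 0`, `im_div`); library `conv` + `integral_ker_inside` + `Th_eq`.
`E0_PP_cj`: `CT (PP (cj F)) z = CT (boundary value) z - CT (cj F) z`; the boundary value is the
uniform limit of `s ↦ CT (cj F) (q γ(s))`, and `CT (s ↦ CT φ (q γ(s))) z = CT φ (q z)` by Fubini,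
`1/((a - qσ)(σ - z)) = (a - q z)⁻¹ (q/(a - qσ) + 1/(σ - z))`, `integral_outside`,
`integral_inside`; then `CT_continuousAt`.
`int_poly`: same, with `∫ p(γ) γ' /(γ(t) - q γ) = 0`.
-/

namespace Vale.Agent.P123

open MeasureTheory Polynomial
open scoped Real

variable {h : ℝ → ℝ} {F : ℝ → ℂ}

theorem CT_cj_tendsto (hh : Adm h) (hF : E0 h F) {ε : ℝ} (hε : 0 < ε) :
    ∃ q₀ : ℝ, q₀ < 1 ∧ ∀ q : ℝ, 0 < q → q₀ < q → q < 1 → ∀ s : ℝ,
      ‖CT h (cj F) (q * cur h s) - (cj F s + PP h (cj F) s)‖ ≤ ε := by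
  sorry

/-- `PP (conj E0) ⊆ E0` -/
theorem E0_PP_cj (hh : Adm h) (hF : E0 h F) : E0 h (PP h (cj F)) := by
  sorry

/-- the boundary value of the Cauchy transform of `conj F` is orthogonal to polynomials -/
theorem int_poly (hh : Adm h) (hF : E0 h F) (p : ℂ[X]) :
    ∫ s in (0 : ℝ)..(2 * π), p.eval (cur h s) * (cj F s + PP h (cj F) s) * dcur h s = 0 := by
  sorry

end Vale.Agent.P123
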