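import Vale.Agent.Lib.P123F.ExtAlg

/-!
P123: the coefficients of the resolvent are in `E0`.

`J(z) = ∮ R(σ)/(σ - z) dσ` satisfies `(A - z) J(z) = ∮ (R - 1/(σ - z)) dσ = 0` (`integral_res`,
`integral_inside`). In finite dimension `A - z` is invertible except for finitely many `z`
and `J` is continuous.
-/

namespace Vale.Agent.P123

open MeasureTheory Polynomial
open scoped Real InnerProductSpace

variable {h : ℝ → ℝ} {H : Type*} [NormedAddCommGroup H] [InnerProductSpace ℂ H] [CompleteSpace H]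
  [FiniteDimensional ℂ H] {A : H →L[ℂ] H} {δ : ℝ}

theorem E0_res (hh : Adm h) (hA : AdmA h A δ) (u v : H) :
    E0 h (fun s => ⟪v, res h A 1 s u⟫_ℂ) := by
  sorry

theorem E0_cur_res (hh : Adm h) (hA : AdmA h A δ) (u v : H) :
    E0 h (fun s => cur h s * ⟪v, res h A 1 s u⟫_ℂ - ⟪v, u⟫_ℂ) := by
  sorry

/-- `⟨(P(σ) - P(A)) (σ - A)⁻¹ u, v⟩` is a polynomial in `σ` -/
theorem exists_poly (hh : Adm h) (hA : AdmA h A δ) (P : ℂ[X]) (u v : H) :
    ∃ q : ℂ[X], ∀ s, P.eval (cur h s) * ⟪v, res h A 1 s u⟫_ℂ -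
      ⟪v, aeval A P (res h A 1 s u)⟫_ℂ = q.eval (cur h s) := by
  sorry

end Vale.Agent.P123
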