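import Vale.Agent.Lib.P123F.Quot
import Vale.Agent.Lib.P123F.Resolv

/-!
P123: the heart of the proof.
-/

namespace Vale.Agent.P123

open MeasureTheory Polynomial
open scoped Real InnerProductSpace

variable {h : ℝ → ℝ} {H : Type*} [NormedAddCommGroup H] [InnerProductSpace ℂ H] [CompleteSpace H]
  [FiniteDimensional ℂ H] {A : H →L[ℂ] H} {δ : ℝ}

theorem core (hh : Adm h) (hA : AdmA h A δ) (P : ℂ[X]) (hP : ∀ s, ‖P.eval (cur h s)‖ ≤ 1)
    (K : ℝ) (x y : H) (hx : ‖x‖ = 1) (hy : ‖y‖ = 1) (h1 : aeval A P x = (K : ℂ) • y)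
    (h2 : ContinuousLinearMap.adjoint (aeval A P) y = (K : ℂ) • x) : K ≤ 2 := by
  sorry

end Vale.Agent.P123
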