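import Vale.Agent.Lib.P123.Conv
import Vale.Agent.Lib.P123.Res

/-!
P123 (Crouzeix's conjecture): definitions for the proof with the exterior Hardy space of the
equilibrium measure.
-/

namespace Vale.Agent.P123

open MeasureTheory
open scoped Real InnerProductSpace

/-- continuous and `2π`-periodic -/
def Per (F : ℝ → ℂ) : Prop := Continuous F ∧ ∀ t, F (t + 2 * π) = F t

/-- the point `z` is strictly inside the curve -/
def Ins (h : ℝ → ℝ) (z : ℂ) : Prop := ∀ θ, sp θ z < h θ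

/-- the Cauchy transform `(2πi)⁻¹ ∮ F dσ / (σ - z)` -/
noncomputable def CT (h : ℝ → ℝ) (F : ℝ → ℂ) (z : ℂ) : ℂ :=
  (2 * π * Complex.I : ℂ)⁻¹ * ∫ t in (0 : ℝ)..(2 * π), F t * (dcur h t / (cur h t - z))

/-- boundary values of functions analytic outside and vanishing at infinity -/
def E0 (h : ℝ → ℝ) (F : ℝ → ℂ) : Prop := Per F ∧ ∀ z, Ins h z → CT h F z = 0

/-- the exterior Cauchy integral at the point `cur s / q` -/
noncomputable def XT (h : ℝ → ℝ) (F : ℝ → ℂ) (q s : ℝ) : ℂ :=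
  (2 * π * Complex.I : ℂ)⁻¹ *
    ∫ t in (0 : ℝ)..(2 * π), F t * ((q : ℂ) * dcur h t / (cur h s - q * cur h t))

/-- the double layer (Neumann-Poincare) Markov operator -/
noncomputable def PP (h : ℝ → ℝ) (F : ℝ → ℂ) (s : ℝ) : ℂ :=
  (1 / π : ℂ) * ∫ t in (0 : ℝ)..(2 * π), ((ker h (cur h s) t : ℝ) : ℂ) * F t

/-- complex conjugate of a function -/
noncomputable def cj (F : ℝ → ℂ) : ℝ → ℂ := fun t => star (F t)

/-- integral against the density `m` -/
noncomputable def Lm (m : ℝ → ℝ) (F : ℝ → ℂ) : ℂ := ∫ t in (0 : ℝ)..(2 * π), F t * (m t : ℂ)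

/-- an invariant probability density of the double layer operator -/
structure Dens (h : ℝ → ℝ) (m : ℝ → ℝ) : Prop where
  cont : Continuous m
  per : ∀ t, m (t + 2 * π) = m t
  pos : ∀ t, 0 < m t
  mass : ∫ t in (0 : ℝ)..(2 * π), m t = 1
  inv : ∀ F, Per F → Lm m (PP h F) = Lm m F

/-- `χ = 2πi m / γ'` -/
noncomputable def chi (h m : ℝ → ℝ) (t : ℝ) : ℂ := 2 * π * Complex.I * (m t : ℂ) / dcur h t

end Vale.Agent.P123
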