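import Vale.Agent.Lib.P123F.Mark

/-!
P123: existence of the invariant density.  `(L m)(t) = π⁻¹ ∫_0^{2π} ker h (cur h s) t * m s ds`
preserves `∫` (Fubini, `integral_ker_cur`), positivity, continuity + periodicity (dominated
convergence), and `L m ≥ (c/π) ∫ m`; so `‖L m - L m'‖_{L¹} ≤ (1 - 2c) ‖m - m'‖_{L¹}` when
`∫ m = ∫ m'`.  Start with `m₀ = 1/(2π)`, `m_{n+1} = L m_n`; `sup |m_{n+1} - m_n| ≤ (C/π)
‖m_n - m_{n-1}‖_{L¹}`, uniform limit `m`, `L m = m`, `m ≥ c/π`.  `inv` is Fubini: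
`∫ (PP F) m = ∫ F (L m)`.
-/

namespace Vale.Agent.P123

open MeasureTheory
open scoped Real

variable {h : ℝ → ℝ}

theorem exists_dens (hh : Adm h) : ∃ m : ℝ → ℝ, Dens h m := by
  sorry

end Vale.Agent.P123
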