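import Vale.Agent.Lib.P123F.Jump

/-!
P123: the algebra of boundary values of exterior analytic functions vanishing at infinity.

`E0_mul_inv`: partial fractions, `CT (G/(cur-a)) z = (CT G z - CT G a)/(z - a)` for `z ≠ a`,
and continuity of `z ↦ CT G z`-type integrals for `z = a`.
`E0_mul`: by `jump` (with `CT F = 0`), `F` is a uniform limit of
`XT h F q s = (2πi)⁻¹ ∫ F(t) q γ'(t) (γ(s) - q γ(t))⁻¹ dt`; `CT` of `XT h F q * G` is zero by
Fubini and `E0_mul_inv` at `a = q γ(t)`.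
-/

namespace Vale.Agent.P123

open MeasureTheory
open scoped Real

variable {h : ℝ → ℝ} {F G : ℝ → ℂ}

theorem Ins_smul_cur (hh : Adm h) {q : ℝ} (h0 : 0 ≤ q) (h1 : q < 1) (s : ℝ) :
    Ins h (q * cur h s) := fun θ => sp_lt_of_scale hh h0 h1 θ s

theorem Per.add (hF : Per F) (hG : Per G) : Per (fun t => F t + G t) :=
  ⟨hF.1.add hG.1, fun t => by simp only [hF.2, hG.2]⟩

theorem Per.mul (hF : Per F) (hG : Per G) : Per (fun t => F t * G t) :=
  ⟨hF.1.mul hG.1, fun t => by simp only [hF.2, hG.2]⟩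

theorem Per.const_mul (c : ℂ) (hF : Per F) : Per (fun t => c * F t) :=
  ⟨continuous_const.mul hF.1, fun t => by simp only [hF.2]⟩

theorem Per.const (c : ℂ) : Per (fun _ => c) := ⟨continuous_const, fun _ => rfl⟩

theorem Per.cj (hF : Per F) : Per (cj F) :=
  ⟨continuous_star.comp hF.1, fun t => by simp only [Vale.Agent.P123.cj, hF.2]⟩

theorem Per_cur (hh : Adm h) : Per (cur h) := ⟨continuous_cur hh, cur_per hh⟩

theorem Per_dcur (hh : Adm h) : Per (dcur h) := ⟨continuous_dcur hh, dcur_per hh⟩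

theorem CT_add (hh : Adm h) (hF : Per F) (hG : Per G) {z : ℂ} (hz : Ins h z) :
    CT h (fun t => F t + G t) z = CT h F z + CT h G z := by
  sorry

theorem CT_smul (c : ℂ) (z : ℂ) : CT h (fun t => c * F t) z = c * CT h F z := by
  sorry

theorem CT_const (hh : Adm h) (c : ℂ) {z : ℂ} (hz : Ins h z) : CT h (fun _ => c) z = c := by
  sorry

/-- continuity of the Cauchy transform at interior points -/
theorem CT_continuousAt (hh : Adm h) (hF : Per F) {z : ℂ} (hz : Ins h z) :
    ContinuousAt (CT h F) z := by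
  sorry

/-- the Cauchy transform is bounded at each interior point -/
theorem CT_norm_le (hh : Adm h) {z : ℂ} (hz : Ins h z) :
    ∃ C : ℝ, 0 < C ∧ ∀ (F : ℝ → ℂ) (M : ℝ), (∀ t, ‖F t‖ ≤ M) → Per F → ‖CT h F z‖ ≤ C * M := by
  sorry

theorem E0.add (hh : Adm h) (hF : E0 h F) (hG : E0 h G) : E0 h (fun t => F t + G t) := by
  sorry

theorem E0.const_mul (c : ℂ) (hF : E0 h F) : E0 h (fun t => c * F t) := by
  sorry

theorem E0_zero : E0 h (fun _ => 0) := by
  sorry

/-- `E0` is closed under uniform limits -/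
theorem E0_closed (hh : Adm h) (hF : Per F)
    (hlim : ∀ ε : ℝ, 0 < ε → ∃ G, E0 h G ∧ ∀ s, ‖F s - G s‖ ≤ ε) : E0 h F := by
  sorry

theorem E0_const (hh : Adm h) {c : ℂ} (hc : E0 h (fun _ => c)) : c = 0 := by
  sorry

theorem E0_inv_sub (hh : Adm h) {a : ℂ} (ha : Ins h a) : E0 h (fun s => (cur h s - a)⁻¹) := by
  sorry

theorem E0_mul_inv (hh : Adm h) {a : ℂ} (ha : Ins h a) (hG : E0 h G) :
    E0 h (fun s => (cur h s - a)⁻¹ * G s) := by
  sorry

theorem E0_mul (hh : Adm h) (hF : E0 h F) (hG : E0 h G) : E0 h (fun s => F s * G s) := by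
  sorry

/-- multiplication by `σ`, removing the value at infinity -/
theorem E0_cur_mul (hh : Adm h) (hF : E0 h F) :
    E0 h (fun s => cur h s * F s -
      (2 * π * Complex.I : ℂ)⁻¹ * ∫ t in (0 : ℝ)..(2 * π), F t * dcur h t) := by
  sorry

end Vale.Agent.P123
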