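import Vale.Agent.Lib.P123F.Core
import Vale.Agent.Lib.P123.Geo
import Vale.Agent.Lib.P123.TH

/-!
P123: Crouzeix's inequality in finite dimension.
-/

namespace Vale.Agent.P123

open MeasureTheory Polynomial
open scoped Real InnerProductSpace

section sing

variable {H : Type*} [NormedAddCommGroup H] [InnerProductSpace ℂ H] [CompleteSpace H]
  [FiniteDimensional ℂ H]

/-- singular vectors for the norm -/
theorem exists_singular (T : H →L[ℂ] H) (hT : T ≠ 0) :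
    ∃ x y : H, ‖x‖ = 1 ∧ ‖y‖ = 1 ∧ T x = ((‖T‖ : ℝ) : ℂ) • y ∧
      ContinuousLinearMap.adjoint T y = ((‖T‖ : ℝ) : ℂ) • x := by
  sorry

variable {h : ℝ → ℝ} {A : H →L[ℂ] H} {δ : ℝ}

/-- the bound inside an admissible curve -/
theorem bound_curve (hh : Adm h) (hA : AdmA h A δ) (Q : ℂ[X]) (M : ℝ)
    (hM : ∀ s, ‖Q.eval (cur h s)‖ ≤ M) : ‖aeval A Q‖ ≤ 2 * M := by
  sorry

/-- Crouzeix in finite dimension (copy `crouzeix_of_cert_zero`, `crouzeix_of_cert` of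
Lib/P123/FinalB.lean) -/
theorem crouzeix_fin (A : H →L[ℂ] H) (Q : ℂ[X]) (M : ℝ) (hM0 : 0 ≤ M)
    (hM : ∀ x : H, ‖x‖ = 1 → ‖Q.eval ⟪x, A x⟫_ℂ‖ ≤ M) : ‖aeval A Q‖ ≤ 2 * M := by
  sorry

end sing

end Vale.Agent.P123
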