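import Vale.Agent.Lib.P123F.Kern

/-!
P123: the jump relation.  With `a = q γ(s)`, `b = γ(s)/q`:
`CT F a + XT F q s = (2πi)⁻¹ ∫ F(t) [1/(γ(t)-a) - 1/(γ(t)-b)] γ'(t) dt` and the same integral of
`1` is `1` (`integral_inside`, and `∫ γ'/(γ(s) - q γ) = 0`: `integral_outside`).  The kernel is
`(a - b) γ'/((γ(t)-a)(γ(t)-b))`, bounded by `C (1-q)/((1-q)+|t-s|)²` for `|t-s| ≤ π`
(`norm_sub_ge`, `cur_sub_lower`), whose integral is bounded; near/far splitting.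
-/

namespace Vale.Agent.P123

open MeasureTheory
open scoped Real

variable {h : ℝ → ℝ} {F : ℝ → ℂ}

theorem jump (hh : Adm h) (hF : Per F) {ε : ℝ} (hε : 0 < ε) :
    ∃ q₀ : ℝ, q₀ < 1 ∧ ∀ q : ℝ, 0 < q → q₀ < q → q < 1 → ∀ s : ℝ,
      ‖CT h F (q * cur h s) + XT h F q s - F s‖ ≤ ε := by
  sorry

end Vale.Agent.P123
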