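import Vale.Agent.Lib.P123F.Defs

/-!
P123: the double layer kernel: bounds, measurability, continuity off the diagonal.

`h t - sp t (cur h s) = ∫_s^t sin (t - u) rho h u du` (see `hasDerivAt_Gaux`, `sp_cur_lt` in
Lib/P123/Curve.lean), so it is between `rmin (1 - cos (t - s))` and `rmax (1 - cos (t - s))`;
`‖cur h t - cur h s‖ ≤ rmax |t - s|`; lower bound of `‖cur h t - cur h s‖` by `c |t - s|` for
`|t - s| ≤ π`: `‖cur t - cur s‖ ≥ |sp θ (cur t - cur s)|` with a good direction `θ`, e.g.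
`cur t - cur s = ∫_s^t i e^{iu} rho u du`, direction `i e^{i (s+t)/2}`: the component is
`∫ cos (u - (s+t)/2) rho u du ≥ rmin * 2 sin (|t-s|/2) ≥ rmin * 2 |t - s| / π`.
-/

namespace Vale.Agent.P123

open MeasureTheory
open scoped Real

variable {h : ℝ → ℝ}

/-- `‖γ(t) - γ(s)‖ ≥ c |t - s|` for `|t - s| ≤ π` -/
theorem cur_sub_lower (hh : Adm h) : ∃ c : ℝ, 0 < c ∧ ∀ s t : ℝ, |t - s| ≤ π →
    c * |t - s| ≤ ‖cur h t - cur h s‖ := by
  sorry

/-- positive lower bound of the kernel off the diagonal (Doeblin) -/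
theorem ker_lower (hh : Adm h) : ∃ c : ℝ, 0 < c ∧ ∀ s t : ℝ, 0 < |t - s| → |t - s| ≤ π →
    c ≤ ker h (cur h s) t := by
  sorry

/-- upper bound of the kernel -/
theorem ker_upper (hh : Adm h) : ∃ C : ℝ, 0 < C ∧ ∀ s t : ℝ, ker h (cur h s) t ≤ C := by
  sorry

theorem ker_per_right (hh : Adm h) (z : ℂ) (t : ℝ) : ker h z (t + 2 * π) = ker h z t := by
  rw [← im_div, ← im_div, dcur_per hh, cur_per hh]

theorem ker_per_left (hh : Adm h) (s t : ℝ) : ker h (cur h (s + 2 * π)) t = ker h (cur h s) t := by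
  rw [cur_per hh]

theorem measurable_ker (hh : Adm h) : Measurable (fun p : ℝ × ℝ => ker h (cur h p.1) p.2) := by
  sorry

theorem ker_continuousAt_left (hh : Adm h) {s t : ℝ} (hne : cur h t ≠ cur h s) :
    ContinuousAt (fun s => ker h (cur h s) t) s := by
  sorry

theorem ker_continuousAt_right (hh : Adm h) {s t : ℝ} (hne : cur h t ≠ cur h s) :
    ContinuousAt (fun t => ker h (cur h s) t) t := by
  sorry

/-- the kernel has mass `π` (this is `Th_eq`) -/
theorem integral_ker_cur (hh : Adm h) (s : ℝ) :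
    ∫ t in (0 : ℝ)..(2 * π), ker h (cur h s) t = π := by
  sorry

end Vale.Agent.P123
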