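import Vale.Agent.Lib.P123.Defs

/-!
P123 (Crouzeix, constant 2): reduction to finite dimensional subspaces.
-/

namespace Vale.Agent.P123F

open Vale.Agent.P123
open scoped InnerProductSpace

variable {H : Type*} [NormedAddCommGroup H] [InnerProductSpace ℂ H] [CompleteSpace H]

/-- the compression of `A` to a finite dimensional subspace -/
noncomputable def compr (V : Submodule ℂ H) [V.HasOrthogonalProjection] (A : H →L[ℂ] H) :
    V →L[ℂ] V := V.orthogonalProjectionOnto ∘L A ∘L V.subtypeL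

theorem compr_apply (V : Submodule ℂ H) [V.HasOrthogonalProjection] (A : H →L[ℂ] H) (v : V) :
    compr V A v = V.orthogonalProjectionOnto (A (v : H)) := rfl

theorem compr_adm {h : ℝ → ℝ} {A : H →L[ℂ] H} {δ : ℝ} (V : Submodule ℂ H)
    [V.HasOrthogonalProjection] [CompleteSpace V] (hA : AdmA h A δ) : AdmA h (compr V A) δ := by
  refine ⟨hA.δ_pos, hA.le_h, ?_⟩
  intro θ x hx
  have h1 : ⟪x, compr V A x⟫_ℂ = ⟪(x : H), A (x : H)⟫_ℂ := by
    rw [compr_apply]
    rw [Submodule.inner_orthogonalProjectionOnto_eq_of_mem_left]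
  rw [h1]
  exact hA.num θ x (by simpa using hx)

theorem compr_pow (V : Submodule ℂ H) [V.HasOrthogonalProjection] (A : H →L[ℂ] H) (x : H) (d : ℕ)
    (hV : ∀ k ≤ d, (A ^ k) x ∈ V) (hx : x ∈ V) : ∀ k ≤ d,
    ((((compr V A) ^ k) ⟨x, hx⟩ : V) : H) = (A ^ k) x := by
  intro k hk
  induction k with
  | zero => simp
  | succ k ih =>
    have h1 := ih (by omega)
    rw [pow_succ', pow_succ', ContinuousLinearMap.mul_apply, ContinuousLinearMap.mul_apply,
      compr_apply, h1]
    have h2 : A ((A ^ k) x) ∈ V := by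
      have := hV (k + 1) hk
      rwa [pow_succ', ContinuousLinearMap.mul_apply] at this
    exact Submodule.orthogonalProjectionOnto_mem_subspace_eq_self (K := V) ⟨A ((A ^ k) x), h2⟩ |> congrArg Subtype.val

theorem norm_aeval_le_of_fin (h : ℝ → ℝ) (δ C : ℝ) (hC : 0 ≤ C) (Q : Polynomial ℂ)
    (hfin : ∀ (V : Submodule ℂ H) [FiniteDimensional ℂ V] (B : V →L[ℂ] V), AdmA h B δ →
      ‖Polynomial.aeval B Q‖ ≤ C) (A : H →L[ℂ] H) (hA : AdmA h A δ) :
    ‖Polynomial.aeval A Q‖ ≤ C := by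
  apply ContinuousLinearMap.opNorm_le_bound _ hC
  intro x
  set d := Q.natDegree with hd
  set V : Submodule ℂ H := Submodule.span ℂ (Set.range fun k : Fin (d + 1) => (A ^ (k : ℕ)) x)
    with hVdef
  have hfd : FiniteDimensional ℂ V := FiniteDimensional.span_of_finite ℂ (Set.finite_range _)
  have hV : ∀ k ≤ d, (A ^ k) x ∈ V := fun k hk =>
    Submodule.subset_span ⟨⟨k, by omega⟩, rfl⟩
  have hx : x ∈ V := by simpa using hV 0 (Nat.zero_le _)
  have h1 : ((Polynomial.aeval (compr V A) Q ⟨x, hx⟩ : V) : H) = Polynomial.aeval A Q x := by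
    rw [Polynomial.aeval_eq_sum_range, Polynomial.aeval_eq_sum_range]
    simp only [ContinuousLinearMap.sum_apply, ContinuousLinearMap.smul_apply,
      Submodule.coe_sum, Submodule.coe_smul]
    apply Finset.sum_congr rfl
    intro k hk
    rw [compr_pow V A x d hV hx k (by simpa [Nat.lt_succ_iff] using hk)]
  have h2 := hfin V (compr V A) (compr_adm V hA)
  calc ‖Polynomial.aeval A Q x‖ = ‖Polynomial.aeval (compr V A) Q ⟨x, hx⟩‖ := by
        rw [← h1]; rfl
    _ ≤ ‖Polynomial.aeval (compr V A) Q‖ * ‖(⟨x, hx⟩ : V)‖ := ContinuousLinearMap.le_opNorm _ _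
    _ ≤ C * ‖x‖ := by
        apply mul_le_mul_of_nonneg_right h2 (norm_nonneg _)

end Vale.Agent.P123F
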