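import Mathlib

/-!
P123 (Crouzeix, constant 2): the path lemma for closed subalgebras.
-/

namespace Vale.Agent.P123F

open Topology Filter

/-- Path lemma.  `S` is a closed subalgebra of a Banach algebra, `w` a path in `S` all of whose
points are invertible in the big algebra.  If the starting point is invertible in `S`, then so is
the end point. -/
theorem path_lemma {B : Type*} [NormedRing B] [CompleteSpace B] [NormedAlgebra ℂ B]
    (S : Subalgebra ℂ B) (hS : IsClosed (S : Set B)) (w : unitInterval → B) (hw : Continuous w)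
    (hwS : ∀ l, w l ∈ S) (hu : ∀ l, IsUnit (w l)) (h0 : IsUnit (⟨w 0, hwS 0⟩ : S)) (l : unitInterval) :
    ∃ v ∈ S, w l * v = 1 ∧ v * w l = 1 := by
  have : CompleteSpace S := hS.completeSpace_coe
  have : IsClosed (S : Set B) := hS
  let W : unitInterval → S := fun l => ⟨w l, hwS l⟩
  have hWc : Continuous W := hw.subtype_mk _
  have hopen : IsOpen {l | IsUnit (W l)} := Units.isOpen.preimage hWc
  have hclosed : IsClosed {l | IsUnit (W l)} := by
    rw [← isSeqClosed_iff_isClosed]
    intro x a hx hxa
    have h1 : Tendsto (fun n => W (x n)) atTop (𝓝 (W a)) := (hWc.tendsto a).comp hxa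
    exact Subalgebra.isUnit_of_isUnit_val_of_eventually S (l := map (fun n => W (x n)) atTop)
      (a := W a) (hu a) h1 (by
        rw [eventually_map]
        exact Eventually.of_forall fun n => hx n) inferInstance
  have huniv : {l | IsUnit (W l)} = Set.univ :=
    IsClopen.eq_univ ⟨hclosed, hopen⟩ ⟨0, h0⟩
  have hl : IsUnit (W l) := by
    have : l ∈ {l | IsUnit (W l)} := by rw [huniv]; trivial
    exact this
  obtain ⟨u, hu'⟩ := hl
  refine ⟨((u⁻¹ : Sˣ) : S), ((u⁻¹ : Sˣ) : S).2, ?_, ?_⟩
  · have := congrArg (Subtype.val) (u.mul_inv)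
    rw [hu'] at this
    simpa [W] using this
  · have := congrArg (Subtype.val) (u.inv_mul)
    rw [hu'] at this
    simpa [W] using this

end Vale.Agent.P123F
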