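import Vale.Agent.Lib.P123F.Bdry
import Vale.Agent.Lib.P123F.Dens

/-!
P123: the invariant density integrates exterior functions to their value at infinity, and
division by `χ`.

`E0_int`: `F ∈ E0` implies `PP F = cj (PP (cj F))`... `PP (PP F) ∈ E0`: `PP F = cj (PP (cj F))` with
`PP (cj F) ∈ E0`, so `PP (PP F) = PP (cj G)`, `G = PP (cj F) ∈ E0`, is in `E0`. So all `PP^[2n] F`
are in `E0` and converge uniformly to a constant `c` (`PP_iter`); `E0_closed`, `E0_const` give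
`c = 0`; and `Lm m F = Lm m (PP^[2n] F) → c`.
`E0_chi`: `CT (chi) z = ∫ m/(γ - z) = Lm m (γ - z)⁻¹ = 0`.
`E0_div_chi`: `w = cur * chi`, `w - 1 ∈ E0` (`E0_cur_mul`, mass one), `Re w > 0`
(`w = 2π m/rho * (e^{-is} cur s)`, `sp s (cur s) = h s > 0`), so `‖1 - κ w‖ ≤ θ < 1` for small
`κ > 0` and `w⁻¹ = κ Σ (1 - κ w)ⁿ`, all partial sums are in `C + E0`, hence `w⁻¹ - 1 ∈ E0`.
`X/χ - v = (cur X - v) w⁻¹ + v (w⁻¹ - 1)`.
-/

namespace Vale.Agent.P123

open MeasureTheory Polynomial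
open scoped Real

variable {h m : ℝ → ℝ} {F X : ℝ → ℂ}

theorem E0_int (hh : Adm h) (hm : Dens h m) (hF : E0 h F) : Lm m F = 0 := by
  sorry

theorem E0_chi (hh : Adm h) (hm : Dens h m) : E0 h (chi h m) := by
  sorry

theorem E0_div_chi (hh : Adm h) (hm : Dens h m) {v : ℂ} (hX : Per X)
    (hv : E0 h (fun s => cur h s * X s - v)) : E0 h (fun s => X s / chi h m s - v) := by
  sorry

end Vale.Agent.P123
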